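import Mathlib
import Vale.Agent.P226.Final

open MeasureTheory

/-- The Gaussian propeller conjecture: for every dimension `d`, every number of cells `k`, and
every partition of Euclidean `d`-space into `k` measurable cells (up to null sets), the sum of the
squared norms of the Gaussian first moments of the cells is at most `9 / (8 π)`. -/
theorem Vale.Agent.Results.P226.Propeller.result (d k : ℕ)
    (γ : Measure (EuclideanSpace ℝ (Fin d)))
    (hγ : γ = (volume : Measure (EuclideanSpace ℝ (Fin d))).withDensity (fun x =>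
      ENNReal.ofReal ((2 * Real.pi) ^ (-(d : ℝ) / 2) * Real.exp (-‖x‖ ^ 2 / 2))))
    (A : Fin k → Set (EuclideanSpace ℝ (Fin d)))
    (hmeas : ∀ i, NullMeasurableSet (A i) γ)
    (hdisj : ∀ i j, i ≠ j → γ (A i ∩ A j) = 0)
    (hcover : γ (⋃ i, A i)ᶜ = 0) :
    ∑ i, ‖∫ x in A i, x ∂γ‖ ^ 2 ≤ 9 / (8 * Real.pi) := by
  rw [← Vale.Agent.P226.stdGaussian_eq_withDensity] at hγ
  subst hγ
  exact Vale.Agent.P226.propeller hmeas (fun i j hij => hdisj i j hij) hcover
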